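import Mathlib

set_option autoImplicit false

/-!
# Unlabelled copies, labelled copies and automorphisms (helper for S0076)
-/

namespace Crest.Agent.KK2

open SimpleGraph

variable {V U : Type} [Fintype V] [Fintype U] (Γ : SimpleGraph V) (G : SimpleGraph U)

/-- The copy of `Γ` in `G` given by an isomorphism of `Γ` with a subgraph of `G`. -/
def copyOf {G' : G.Subgraph} (e : Γ ≃g G'.coe) : Γ.Copy G :=
  ⟨G'.hom.comp e.toHom, Subgraph.hom_injective.comp e.injective⟩

theorem copyOf_apply {G' : G.Subgraph} (e : Γ ≃g G'.coe) (x : V) :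
    copyOf Γ G e x = (e x : U) := rfl

theorem toSubgraph_copyOf {G' : G.Subgraph} (e : Γ ≃g G'.coe) :
    (copyOf Γ G e).toSubgraph = G' := by
  simp [copyOf, Copy.toSubgraph, Subgraph.map_comp]

theorem labelledCopyCount_eq_natCard : G.labelledCopyCount Γ = Nat.card (Γ.Copy G) := by
  classical
  rw [Nat.card_eq_fintype_card]
  unfold SimpleGraph.labelledCopyCount
  congr

/-- Every unlabelled copy carries at least `|Aut Γ|` labelled copies. -/
theorem copyCount_mul_aut_le :
    G.copyCount Γ * Nat.card (Γ ≃g Γ) ≤ G.labelledCopyCount Γ := by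
  classical
  let T := {G' : G.Subgraph // Nonempty (Γ ≃g G'.coe)}
  have hT : G.copyCount Γ = Nat.card T := by
    rw [Nat.card_eq_fintype_card, Fintype.card_subtype]
    unfold SimpleGraph.copyCount
    congr
  have hL : G.labelledCopyCount Γ = Nat.card (Γ.Copy G) := labelledCopyCount_eq_natCard Γ G
  let Φ : T × (Γ ≃g Γ) → Γ.Copy G := fun x => copyOf Γ G (x.2.trans (Classical.choice x.1.2))
  have hΦ : Function.Injective Φ := by
    rintro ⟨G1, α⟩ ⟨G2, β⟩ h
    have h1 : G1 = G2 := by
      apply Subtype.ext
      have := congrArg Copy.toSubgraph h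
      simpa only [Φ, toSubgraph_copyOf] using this
    subst h1
    have h2 : α = β := by
      apply RelIso.ext
      intro x
      have := DFunLike.congr_fun h x
      simp only [Φ, copyOf_apply] at this
      have h3 := Subtype.ext this
      exact (Classical.choice G1.2).injective h3
    rw [h2]
  rw [hT, hL, ← Nat.card_prod]
  exact Nat.card_le_card_of_injective Φ hΦ

end Crest.Agent.KK2
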