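import Crest.Agent.KK.Graph
import Crest.Agent.KK2.Aut

set_option autoImplicit false

/-!
# Translation of the hypothesis of S0076: expected copy counts in the binomial random graph
-/

namespace Crest.Agent.KK2

open Finset Crest.CombinatoricsR.RandomGraph Crest.Agent.KK
open scoped Classical

variable {n : ℕ} {V : Type} [Fintype V] [DecidableEq V] (Γ : SimpleGraph V) [DecidableRel Γ.Adj]

/-- For an injective vertex map the image has as many edge slots as `Γ` has edges. -/
theorem card_img_eq {σ : V → Fin n} (hσ : Function.Injective σ) :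
    (img Γ σ).card = Γ.edgeFinset.card := by
  apply le_antisymm (card_img_le Γ σ)
  calc Γ.edgeFinset.card = (Γ.edgeFinset.image (Sym2.map σ)).card :=
        (Finset.card_image_of_injective _ (Sym2.map.injective hσ)).symm
    _ ≤ ((img Γ σ).image (fun z => z.1)).card := by
        apply Finset.card_le_card
        intro z hz
        obtain ⟨e, he, rfl⟩ := Finset.mem_image.mp hz
        induction e using Sym2.ind with
        | _ a b =>
          rw [SimpleGraph.mem_edgeFinset, SimpleGraph.mem_edgeSet] at he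
          have hne : σ a ≠ σ b := fun h => he.ne (hσ h)
          have hd : ¬ (s(σ a, σ b) : Sym2 (Fin n)).IsDiag := by simpa using hne
          exact Finset.mem_image.mpr ⟨⟨s(σ a, σ b), hd⟩, (mem_img Γ).mpr ⟨a, b, he, rfl⟩, rfl⟩
    _ ≤ (img Γ σ).card := Finset.card_image_le

/-- The number of injective vertex maps. -/
theorem card_injs : (injs V n).card = n.descFactorial (Fintype.card V) := by
  have h : (injs V n).card = Fintype.card (V ↪ Fin n) := by
    rw [← Fintype.card_coe]
    apply Fintype.card_congr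
    exact
      { toFun := fun σ => ⟨σ.1, mem_injs.mp σ.2⟩
        invFun := fun f => ⟨f, mem_injs.mpr f.injective⟩
        left_inv := fun _ => rfl
        right_inv := fun _ => rfl }
  rw [h, Fintype.card_embedding_eq, Fintype.card_fin]

/-- Labelled copies in `graphOf ω` are the injective maps whose image lies in the support. -/
theorem labelledCopyCount_graphOf (ω : EdgeSlot n → Bool) :
    (graphOf ω).labelledCopyCount Γ = ((injs V n).filter (fun σ => img Γ σ ⊆ supp ω)).card := by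
  have hL : (graphOf ω).labelledCopyCount Γ = Nat.card (Γ.Copy (graphOf ω)) :=
    labelledCopyCount_eq_natCard Γ (graphOf ω)
  rw [hL, ← Fintype.card_coe, ← Nat.card_eq_fintype_card]
  apply Nat.card_congr
  refine
    { toFun := fun f => ⟨f, ?_⟩
      invFun := fun σ => ⟨⟨σ.1, ?_⟩, ?_⟩
      left_inv := fun _ => rfl
      right_inv := fun _ => rfl }
  · rw [Finset.mem_filter]
    refine ⟨mem_injs.mpr f.injective, ?_⟩
    intro z hz
    obtain ⟨a, b, hab, hz⟩ := (mem_img Γ).mp hz
    have h1 : (graphOf ω).Adj (f a) (f b) := f.toHom.map_adj hab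
    obtain ⟨h, hω⟩ := (graphOf_adj ω _ _).mp h1
    have : z = ⟨s(f a, f b), h⟩ := Subtype.ext hz
    rw [mem_supp, this]
    exact hω
  · intro a b hab
    have hσ := (Finset.mem_filter.mp σ.2)
    have hinj := mem_injs.mp hσ.1
    rw [graphOf_adj]
    have hne : σ.1 a ≠ σ.1 b := fun h => hab.ne (hinj h)
    have hd : ¬ (s(σ.1 a, σ.1 b) : Sym2 (Fin n)).IsDiag := by simpa using hne
    refine ⟨hd, ?_⟩
    have hmem : (⟨s(σ.1 a, σ.1 b), hd⟩ : EdgeSlot n) ∈ img Γ σ.1 :=
      (mem_img Γ).mpr ⟨a, b, hab, rfl⟩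
    exact mem_supp.mp (hσ.2 hmem)
  · exact mem_injs.mp (Finset.mem_filter.mp σ.2).1

/-- The expected number of labelled copies. -/
theorem gnpExpect_labelledCopyCount (p : ℝ) :
    gnpExpect n p (fun G => (G.labelledCopyCount Γ : ℝ)) =
      (n.descFactorial (Fintype.card V) : ℝ) * p ^ Γ.edgeFinset.card := by
  unfold gnpExpect
  obtain ⟨f, hf⟩ : ∃ f : Finset (EdgeSlot n) → ℝ,
      f = fun W => ∑ σ ∈ injs V n, if img Γ σ ⊆ W then (1 : ℝ) else 0 := ⟨_, rfl⟩
  have h1 : ∀ ω : EdgeSlot n → Bool, ((graphOf ω).labelledCopyCount Γ : ℝ) = f (supp ω) := by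
    intro ω
    rw [labelledCopyCount_graphOf, Finset.card_filter, hf]
    push_cast
    rfl
  have h0 : ∑ ω : EdgeSlot n → Bool, Crest.FinProb.bernoulliWeight p ω *
      ((graphOf ω).labelledCopyCount Γ : ℝ) =
      ∑ ω : EdgeSlot n → Bool, Crest.FinProb.bernoulliWeight p ω * f (supp ω) :=
    Finset.sum_congr rfl (fun ω _ => by rw [h1])
  rw [h0, bernoulliExpect_eq, hf]
  simp_rw [Finset.mul_sum]
  rw [Finset.sum_comm]
  have h2 : ∀ σ ∈ injs V n, ∑ W : Finset (EdgeSlot n), wt p W * (if img Γ σ ⊆ W then (1 : ℝ) else 0)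
      = p ^ Γ.edgeFinset.card := by
    intro σ hσ
    rw [sum_wt_superset, card_img_eq Γ (mem_injs.mp hσ)]
  rw [Finset.sum_congr rfl h2, Finset.sum_const, card_injs, nsmul_eq_mul]

theorem bernoulliWeight_nonneg {ι : Type*} [Fintype ι] {p : ℝ} (hp0 : 0 ≤ p) (hp1 : p ≤ 1)
    (ω : ι → Bool) : 0 ≤ Crest.FinProb.bernoulliWeight p ω := by
  unfold Crest.FinProb.bernoulliWeight
  apply Finset.prod_nonneg
  intro i _
  split_ifs
  · exact hp0
  · linarith

/-- **(B1)** If the expected number of unlabelled copies of `Γ` is at least `1/2`, then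
`|Aut Γ| ≤ 2 (n)_v p^e`. -/
theorem aut_le_of_expect {p : ℝ} (hp0 : 0 ≤ p) (hp1 : p ≤ 1)
    (hE : (1 : ℝ) / 2 ≤ gnpExpect n p (fun G => (G.copyCount Γ : ℝ))) :
    (Nat.card (Γ ≃g Γ) : ℝ) ≤
      2 * ((n.descFactorial (Fintype.card V) : ℝ) * p ^ Γ.edgeFinset.card) := by
  rw [← gnpExpect_labelledCopyCount]
  have h1 : gnpExpect n p (fun G => (G.copyCount Γ : ℝ)) * (Nat.card (Γ ≃g Γ) : ℝ) ≤
      gnpExpect n p (fun G => (G.labelledCopyCount Γ : ℝ)) := by
    unfold gnpExpect
    rw [Finset.sum_mul]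
    apply Finset.sum_le_sum
    intro ω _
    rw [mul_assoc]
    apply mul_le_mul_of_nonneg_left _ (bernoulliWeight_nonneg hp0 hp1 ω)
    show (((graphOf ω).copyCount Γ : ℕ) : ℝ) * (Nat.card (Γ ≃g Γ) : ℝ) ≤
      (((graphOf ω).labelledCopyCount Γ : ℕ) : ℝ)
    exact_mod_cast copyCount_mul_aut_le Γ (graphOf ω)
  have h2 : (0 : ℝ) ≤ (Nat.card (Γ ≃g Γ) : ℝ) := Nat.cast_nonneg _
  nlinarith [mul_le_mul_of_nonneg_right hE h2]

end Crest.Agent.KK2
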