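import Crest.Agent.KK2.Spread

set_option autoImplicit false

/-!
# S0076 reduced to a pure graph-counting lemma

`reduction` below proves the statement of S0076 from the hypothesis `hGL`, which no longer mentions
probability: if `|Aut F| ≤ 2 (n)_{v(F)} p^{e(F)}` for every subgraph `F` of `H`, then
`inj(F, H) ≤ (e^50 p)^{e(F)} (n)_{v(F)}` for every subgraph `F` of `H` without isolated vertices.
(That lemma itself is NOT proved here.)
-/

namespace Crest.Agent.KK2

open Finset Crest.CombinatoricsR.RandomGraph Crest.Agent.KK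
open scoped Classical

/-- The graph-counting lemma for a given `n`, `H`, `p`. -/
def GLcore (n : ℕ) {W : Type} (H : SimpleGraph W) (p : ℝ) : Prop :=
  (∀ F : H.Subgraph, (Nat.card (F.coe ≃g F.coe) : ℝ) ≤
      2 * ((n.descFactorial (Nat.card F.verts) : ℝ) * p ^ Nat.card F.coe.edgeSet)) →
    ∀ F : H.Subgraph, (∀ v ∈ F.verts, ∃ w, F.Adj v w) →
      (Nat.card (F.coe.Copy H) : ℝ) ≤
        (Real.exp 50 * p) ^ Nat.card F.coe.edgeSet * (n.descFactorial (Nat.card F.verts) : ℝ)

theorem reduction
    (n : ℕ) (W : Type) [Fintype W] [DecidableEq W] (H : SimpleGraph W)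
    [DecidableRel H.Adj] (hW : Fintype.card W ≤ n) (hH : 1 ≤ H.edgeFinset.card)
    (p : ℝ) (hp0 : 0 ≤ p) (hp1 : p ≤ 1)
    (hE : ∀ F : H.Subgraph, (1 : ℝ) / 2 ≤
      gnpExpect n p (fun G => (G.copyCount F.coe : ℝ)))
    (hGL : GLcore n H p) :
    (1 : ℝ) / 2 ≤ gnpProb n
      (min 1 (2048 * Real.exp 50 * p * (1 + Real.logb 2 (H.edgeFinset.card : ℝ))))
      {G | H.IsContained G} := by
  have hq : 0 ≤ Real.exp 50 * p := mul_nonneg (Real.exp_pos _).le hp0
  have haut : ∀ F : H.Subgraph, (Nat.card (F.coe ≃g F.coe) : ℝ) ≤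
      2 * ((n.descFactorial (Nat.card F.verts) : ℝ) * p ^ Nat.card F.coe.edgeSet) := by
    intro F
    have h := aut_le_of_expect (n := n) F.coe hp0 hp1 (hE F)
    have hv : Nat.card F.verts = Fintype.card F.verts := Nat.card_eq_fintype_card
    have he : Nat.card F.coe.edgeSet = F.coe.edgeFinset.card := by
      rw [SimpleGraph.edgeFinset_card, Nat.card_eq_fintype_card]
    rw [hv, he]
    exact h
  have h := threshold_of_spread H hW hH hq (spread_of_inj H hq (hGL haut))
  rw [← mul_assoc] at h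
  exact h

end Crest.Agent.KK2
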