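import Crest.Agent.KK2.Hyp

set_option autoImplicit false

/-!
# Translation of the conclusion: counting embeddings of subgraphs gives the spread condition
-/

namespace Crest.Agent.KK2

open Finset Crest.CombinatoricsR.RandomGraph Crest.Agent.KK
open scoped Classical

variable {n : ℕ} {V : Type} [Fintype V] [DecidableEq V] (H : SimpleGraph V) [DecidableRel H.Adj]

/-- The subgraph of `H` pulled back from a set `U` of edge slots along `σ0`. -/
def pull (σ0 : V → Fin n) (U : Finset (EdgeSlot n)) : H.Subgraph where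
  verts := {v | ∃ w, H.Adj v w ∧ ∃ z ∈ U, z.1 = s(σ0 v, σ0 w)}
  Adj v w := H.Adj v w ∧ ∃ z ∈ U, z.1 = s(σ0 v, σ0 w)
  adj_sub h := h.1
  edge_vert {v w} h := ⟨w, h⟩
  symm := ⟨by
    rintro v w ⟨h, z, hz, hzz⟩
    exact ⟨h.symm, z, hz, by rw [hzz, Sym2.eq_swap]⟩⟩

theorem pull_no_isolated (σ0 : V → Fin n) (U : Finset (EdgeSlot n)) :
    ∀ v ∈ (pull H σ0 U).verts, ∃ w, (pull H σ0 U).Adj v w := fun _ hv => hv

theorem img_pull {σ0 : V → Fin n} {U : Finset (EdgeSlot n)} (hU : U ⊆ img H σ0) :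
    img (pull H σ0 U).coe (fun x => σ0 x.1) = U := by
  ext z
  rw [mem_img]
  constructor
  · rintro ⟨a, b, hab, hz⟩
    obtain ⟨_, z', hz', hzz⟩ := hab
    have : z = z' := Subtype.ext (hz.trans hzz.symm)
    rw [this]; exact hz'
  · intro hz
    obtain ⟨a, b, hab, hzz⟩ := (mem_img H).mp (hU hz)
    have h1 : (pull H σ0 U).Adj a b := ⟨hab, z, hz, hzz⟩
    exact ⟨⟨a, (pull H σ0 U).edge_vert h1⟩, ⟨b, (pull H σ0 U).edge_vert h1.symm⟩, h1, hzz⟩

theorem card_edges_pull {σ0 : V → Fin n} (h0 : Function.Injective σ0) {U : Finset (EdgeSlot n)}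
    (hU : U ⊆ img H σ0) : Nat.card (pull H σ0 U).coe.edgeSet = U.card := by
  have h1 := card_img_eq (n := n) (pull H σ0 U).coe (σ := fun x => σ0 x.1)
    (fun x y hxy => Subtype.ext (h0 hxy))
  rw [img_pull H hU] at h1
  rw [h1, SimpleGraph.edgeFinset_card, Nat.card_eq_fintype_card]

/-- Injective maps `V → Fin n` with prescribed values on the range of an injective `g`. -/
theorem card_fiber_le {S : Type} [Fintype S] (g : S → V) (hg : Function.Injective g)
    (k : S → Fin n) (hk : Function.Injective k) :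
    ((injs V n).filter (fun σ => ∀ x, σ (g x) = k x)).card ≤
      (n - Fintype.card S).descFactorial (Fintype.card V - Fintype.card S) := by
  have hC : Fintype.card ↥(Set.range g)ᶜ = Fintype.card V - Fintype.card S := by
    rw [Fintype.card_compl_set, Set.card_range_of_injective hg]
  have hD : Fintype.card ↥(Set.range k)ᶜ = n - Fintype.card S := by
    rw [Fintype.card_compl_set, Set.card_range_of_injective hk, Fintype.card_fin]
  rw [← hC, ← hD, ← Fintype.card_embedding_eq, ← Fintype.card_coe]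
  refine Fintype.card_le_of_injective
    (fun σ => (⟨fun c => ⟨σ.1 c.1, ?_⟩, ?_⟩ : ↥(Set.range g)ᶜ ↪ ↥(Set.range k)ᶜ)) ?_
  · rintro ⟨x, hx⟩
    have hσ := Finset.mem_filter.mp σ.2
    have h1 : σ.1 (g x) = σ.1 c.1 := by rw [hσ.2 x, hx]
    exact c.2 ⟨x, mem_injs.mp hσ.1 h1⟩
  · intro c c' h
    have hσ := Finset.mem_filter.mp σ.2
    exact Subtype.ext (mem_injs.mp hσ.1 (congrArg Subtype.val h))
  · intro σ σ' h
    apply Subtype.ext
    funext a
    by_cases ha : a ∈ Set.range g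
    · obtain ⟨x, rfl⟩ := ha
      rw [(Finset.mem_filter.mp σ.2).2 x, (Finset.mem_filter.mp σ'.2).2 x]
    · have := DFunLike.congr_fun h (⟨a, ha⟩ : ↥(Set.range g)ᶜ)
      exact congrArg Subtype.val this

section tau

variable [Nonempty V] (σ0 : V → Fin n) (U : Finset (EdgeSlot n))

/-- The vertex map `σ⁻¹ ∘ σ0` on the vertices of the pulled back subgraph. -/
noncomputable def tau (σ : V → Fin n) : (pull H σ0 U).verts → V :=
  fun x => Function.invFun σ (σ0 x.1)

variable {σ0 U}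

theorem sigma_tau {σ : V → Fin n} (hσU : U ⊆ img H σ) (x : (pull H σ0 U).verts) :
    σ (tau H σ0 U σ x) = σ0 x.1 := by
  apply Function.invFun_eq
  obtain ⟨w, hw, z, hz, hzz⟩ := x.2
  obtain ⟨a, b, hab, hz2⟩ := (mem_img H).mp (hσU hz)
  rw [hzz] at hz2
  rcases Sym2.eq_iff.mp hz2 with ⟨h1, _⟩ | ⟨h1, _⟩
  · exact ⟨a, h1.symm⟩
  · exact ⟨b, h1.symm⟩

theorem tau_injective (h0 : Function.Injective σ0) {σ : V → Fin n} (hσU : U ⊆ img H σ) :
    Function.Injective (tau H σ0 U σ) := by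
  intro x y hxy
  have := congrArg σ hxy
  rw [sigma_tau H hσU, sigma_tau H hσU] at this
  exact Subtype.ext (h0 this)

theorem tau_adj {σ : V → Fin n} (hσ : Function.Injective σ) (hσU : U ⊆ img H σ)
    {x y : (pull H σ0 U).verts} (hxy : (pull H σ0 U).coe.Adj x y) :
    H.Adj (tau H σ0 U σ x) (tau H σ0 U σ y) := by
  obtain ⟨_, z, hz, hzz⟩ := hxy
  obtain ⟨a, b, hab, hz2⟩ := (mem_img H).mp (hσU hz)
  rw [hzz] at hz2
  rcases Sym2.eq_iff.mp hz2 with ⟨h1, h2⟩ | ⟨h1, h2⟩
  · have ha : tau H σ0 U σ x = a := hσ (by rw [sigma_tau H hσU, h1])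
    have hb : tau H σ0 U σ y = b := hσ (by rw [sigma_tau H hσU, h2])
    rw [ha, hb]; exact hab
  · have ha : tau H σ0 U σ x = b := hσ (by rw [sigma_tau H hσU, h1])
    have hb : tau H σ0 U σ y = a := hσ (by rw [sigma_tau H hσU, h2])
    rw [ha, hb]; exact hab.symm

theorem card_image_tau_le (h0 : Function.Injective σ0) :
    (((injs V n).filter (fun σ => U ⊆ img H σ)).image (tau H σ0 U)).card ≤
      Nat.card ((pull H σ0 U).coe.Copy H) := by
  rw [← Fintype.card_coe, ← Nat.card_eq_fintype_card]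
  have hex : ∀ g : ↥(((injs V n).filter (fun σ => U ⊆ img H σ)).image (tau H σ0 U)),
      ∃ c : (pull H σ0 U).coe.Copy H, (c : (pull H σ0 U).verts → V) = g.1 := by
    intro g
    obtain ⟨σ, hσ, hg⟩ := Finset.mem_image.mp g.2
    obtain ⟨hσ1, hσ2⟩ := Finset.mem_filter.mp hσ
    exact ⟨⟨⟨tau H σ0 U σ, fun h => tau_adj H (mem_injs.mp hσ1) hσ2 h⟩,
      tau_injective H h0 hσ2⟩, hg⟩
  choose c hc using hex
  apply Nat.card_le_card_of_injective c
  intro g g' h
  apply Subtype.ext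
  rw [← hc g, ← hc g', h]

theorem card_good_le (h0 : Function.Injective σ0) :
    ((injs V n).filter (fun σ => U ⊆ img H σ)).card ≤
      (n - Fintype.card (pull H σ0 U).verts).descFactorial
        (Fintype.card V - Fintype.card (pull H σ0 U).verts) *
      Nat.card ((pull H σ0 U).coe.Copy H) := by
  refine (Finset.card_le_mul_card_image (f := tau H σ0 U) _ _ ?_).trans
    (Nat.mul_le_mul_left _ (card_image_tau_le H h0))
  intro g hg
  obtain ⟨σ1, hσ1, rfl⟩ := Finset.mem_image.mp hg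
  have hσ1' := Finset.mem_filter.mp hσ1
  refine le_trans (Finset.card_le_card ?_)
    (card_fiber_le (tau H σ0 U σ1) (tau_injective H h0 hσ1'.2) (fun x => σ0 x.1)
      (fun x y hxy => Subtype.ext (h0 hxy)))
  intro σ hσ
  obtain ⟨hσa, hσb⟩ := Finset.mem_filter.mp hσ
  obtain ⟨hσ2, hσ3⟩ := Finset.mem_filter.mp hσa
  refine Finset.mem_filter.mpr ⟨hσ2, fun x => ?_⟩
  rw [← hσb]
  exact sigma_tau H hσ3 x

end tau

theorem arith_aux (A N c D M : ℕ) (q : ℝ) (u : ℕ) (h1 : A ≤ N * c)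
    (h2 : (c : ℝ) ≤ q ^ u * (D : ℝ)) (h3 : N * D = M) : (A : ℝ) ≤ q ^ u * (M : ℝ) := by
  have h1' : (A : ℝ) ≤ (N : ℝ) * (c : ℝ) := by exact_mod_cast h1
  have h3' : (N : ℝ) * (D : ℝ) = (M : ℝ) := by exact_mod_cast h3
  calc (A : ℝ) ≤ (N : ℝ) * (c : ℝ) := h1'
    _ ≤ (N : ℝ) * (q ^ u * (D : ℝ)) := mul_le_mul_of_nonneg_left h2 (Nat.cast_nonneg _)
    _ = q ^ u * ((N : ℝ) * (D : ℝ)) := by ring
    _ = q ^ u * (M : ℝ) := by rw [h3']

/-- **(B2)** The embedding-counting form of the graph lemma implies the spread condition. -/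
theorem spread_of_inj {q : ℝ} (hq : 0 ≤ q)
    (hcore : ∀ F : H.Subgraph, (∀ v ∈ F.verts, ∃ w, F.Adj v w) →
      (Nat.card (F.coe.Copy H) : ℝ) ≤
        q ^ Nat.card F.coe.edgeSet * (n.descFactorial (Nat.card F.verts) : ℝ))
    (U : Finset (EdgeSlot n)) :
    (((injs V n).filter (fun σ => U ⊆ img H σ)).card : ℝ) ≤ q ^ U.card * (injs V n).card := by
  rcases Finset.eq_empty_or_nonempty ((injs V n).filter (fun σ => U ⊆ img H σ)) with he | ⟨σ0, hσ0⟩
  · rw [he]
    simp only [Finset.card_empty, Nat.cast_zero]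
    positivity
  obtain ⟨h0', hU⟩ := Finset.mem_filter.mp hσ0
  have h0 := mem_injs.mp h0'
  rcases isEmpty_or_nonempty V with hV | hV
  · -- no vertices: `U` is empty
    have hU0 : U = ∅ := by
      apply Finset.eq_empty_of_forall_notMem
      intro z hz
      obtain ⟨a, _⟩ := (mem_img H).mp (hU hz)
      exact hV.elim a
    subst hU0
    simp only [Finset.card_empty, pow_zero, one_mul]
    exact_mod_cast Finset.card_le_card (Finset.filter_subset _ _)
  have h1 := card_good_le H (U := U) h0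
  have h2 := hcore (pull H σ0 U) (pull_no_isolated H σ0 U)
  have hv : Nat.card (pull H σ0 U).verts = Fintype.card (pull H σ0 U).verts :=
    Nat.card_eq_fintype_card
  rw [card_edges_pull H h0 hU, hv] at h2
  have hle : Fintype.card (pull H σ0 U).verts ≤ Fintype.card V := Fintype.card_subtype_le _
  have h3 := Nat.descFactorial_mul_descFactorial (n := n) hle
  rw [card_injs]
  exact arith_aux _ _ _ _ _ q _ h1 h2 h3

end Crest.Agent.KK2
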